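import Mathlib

/-! Definitions for the construction of a counterexample to Naimark's problem. -/

open scoped ComplexOrder InnerProductSpace
open Filter Topology

namespace Vale.Agent.P070

section Alg

variable {R : Type*} [CStarAlgebra R]

/-- A faithful tracial state. -/
structure IsFT (τ : R →L[ℂ] ℂ) : Prop where
  map_one : τ 1 = 1
  comm : ∀ x y, τ (x * y) = τ (y * x)
  nonneg : ∀ x, 0 ≤ τ (star x * x)
  faithful : ∀ x, τ (star x * x) = 0 → x = 0

/-- A decreasing sequence of projections. -/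
structure Dec (r : ℕ → R) : Prop where
  proj : ∀ k, IsStarProjection (r k)
  anti : ∀ k l, k ≤ l → r k * r l = r l

/-- Admissible sequences: decreasing projections starting at `1` whose traces strictly decrease
to `0`. -/
structure Adm (τ : R →L[ℂ] ℂ) (r : ℕ → R) : Prop extends Dec r where
  zero : r 0 = 1
  strict : ∀ k, τ (r (k + 1)) ≠ τ (r k)
  lim : Tendsto (fun k => τ (r k)) atTop (𝓝 0)

/-- `‖s k * x * t k‖ → 0`. -/
def Sm (s : ℕ → R) (x : R) (t : ℕ → R) : Prop :=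
  Tendsto (fun k => ‖s k * x * t k‖) atTop (𝓝 0)

/-- The sequence `r` excises `x`. -/
def Exc (r : ℕ → R) (x : R) : Prop := ∃ c : ℂ, Sm r (x - c • 1) r

/-- Elements orthogonal (for the trace) to all the `r k`. -/
def Ker (τ : R →L[ℂ] ℂ) (r : ℕ → R) : Set R := {x | ∀ k, τ (r k * x) = 0}

/-- Closed linear span of a set. -/
noncomputable def cspan (s : Set R) : Submodule ℂ R := (Submodule.span ℂ s).topologicalClosure

/-- Reduced words `u e₁ * a₁ * u e₂ * ... * u eₙ` with letters in `L`; a letter sitting between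
`u e` and `u e'` with `e' ≠ e` must lie in `K e'`. The indices are the first and last sign. -/
inductive Red (L : Set R) (K : Bool → Set R) (u : Bool → R) : Bool → Bool → R → Prop
  | single (e : Bool) : Red L K u e e (u e)
  | cons {e e' d : Bool} {a w : R} : a ∈ L → (e' ≠ e → a ∈ K e') → Red L K u e' d w →
      Red L K u e d (u e * a * w)

/-- Reduced words over a subalgebra, with the trace kernels. -/
def RedW (τ : R →L[ℂ] ℂ) (B : StarSubalgebra ℂ R) (r : Bool → ℕ → R) (u : Bool → R) :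
    Bool → Bool → R → Prop :=
  Red (B : Set R) (fun e => Ker τ (r e)) u

/-- Full reduced words `a * w * a'`. -/
def WSet (τ : R →L[ℂ] ℂ) (B : StarSubalgebra ℂ R) (r : Bool → ℕ → R) (u : Bool → R) : Set R :=
  {x | ∃ e d w a a', RedW τ B r u e d w ∧ a ∈ B ∧ a' ∈ B ∧ x = a * w * a'}

/-- Freeness: the trace kills full reduced words. -/
def Free (τ : R →L[ℂ] ℂ) (B : StarSubalgebra ℂ R) (r : Bool → ℕ → R) (u : Bool → R) : Prop :=
  ∀ x ∈ WSet τ B r u, τ x = 0

/-- The C*-subalgebra generated by `B` and `u true`. -/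
noncomputable def Ext (B : StarSubalgebra ℂ R) (u : Bool → R) : StarSubalgebra ℂ R :=
  (StarAlgebra.adjoin ℂ (insert (u true) (B : Set R))).topologicalClosure

/-- `u true` is a unitary with adjoint `u false` intertwining `r false` and `r true`. -/
structure Uni (r : Bool → ℕ → R) (u : Bool → R) : Prop where
  ustar : ∀ e, star (u e) = u (!e)
  uunit : ∀ e, u e * u (!e) = 1
  uint : ∀ e k, r e k * u e = u e * r (!e) k

/-- The algebraic data needed for the word calculus. -/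
structure Pre (τ : R →L[ℂ] ℂ) (B : StarSubalgebra ℂ R) (r : Bool → ℕ → R) (u : Bool → R) : Prop
    extends Uni r u where
  closed : IsClosed (B : Set R)
  comm : ∀ x ∈ B, ∀ y ∈ B, τ (x * y) = τ (y * x)
  map_star : ∀ x ∈ B, τ (star x) = star (τ x)
  adm : ∀ e, Adm τ (r e)
  mem : ∀ e k, r e k ∈ B
  tr_eq : ∀ e k, τ (r e k) = τ (r (!e) k)
  dec : ∀ e, ∀ a ∈ B, ∃ d ∈ cspan (Set.range (r e)), a - d ∈ Ker τ (r e)

/-- The hypotheses under which a free unitary is adjoined. -/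
structure Cond (τ : R →L[ℂ] ℂ) (B : StarSubalgebra ℂ R) (r : Bool → ℕ → R) : Prop where
  adm : ∀ e, Adm τ (r e)
  mem : ∀ e k, r e k ∈ B
  tr_eq : ∀ e k, τ (r e k) = τ (r (!e) k)
  exc : ∀ e, ∀ x ∈ B, Exc (r e) x
  orth : ∀ e, ∀ x ∈ B, Sm (r e) x (r (!e))

/-- A gadget: a free unitary over `B`. -/
structure Gad (τ : R →L[ℂ] ℂ) (B : StarSubalgebra ℂ R) (r : Bool → ℕ → R) (u : Bool → R) : Prop
    extends Cond τ B r, Uni r u where
  closed : IsClosed (B : Set R)
  free : Free τ B r u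

/-- Iterated averaging over the symmetries `X 0, ..., X (k-1)`. -/
noncomputable def Av (X : ℕ → R) : ℕ → R → R
  | 0, x => x
  | k + 1, x => (2 : ℂ)⁻¹ • (Av X k x + X k * Av X k x * X k)

/-- The base (CAR) algebra data. -/
structure Base (τ : R →L[ℂ] ℂ) (B : StarSubalgebra ℂ R) (p X : ℕ → R) : Prop where
  adm : Adm τ p
  mem : ∀ n, p n ∈ B
  exc : ∀ x ∈ B, Exc p x
  X_mem : ∀ n, X n ∈ B
  X_star : ∀ n, star (X n) = X n
  X_sq : ∀ n, X n * X n = 1
  split : ∀ n, p n = p (n + 1) + X n * p (n + 1) * X n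
  psi : ∀ x ∈ B, ∀ η : ℝ, 0 < η → ∀ᶠ k in atTop, ∀ᶠ n in atTop,
    ‖p n * (Av X k x - τ x • 1) * p n‖ ≤ η

/-- A well-ordered tower of gadgets. -/
structure Tower (τ : R →L[ℂ] ℂ) (I : Type) [LinearOrder I] where
  A : Set I → StarSubalgebra ℂ R
  u : I → Bool → R
  r : I → Bool → ℕ → R
  act : I → Prop
  supp : I → Set I
  closed : ∀ S, IsClosed (A S : Set R)
  mono : ∀ S T, S ⊆ T → A S ≤ A T
  u_mem : ∀ α e, u α e ∈ A {α}
  insert_le : ∀ S α, A (insert α S) ≤ Ext (A S) (u α)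
  fin : ∀ S, ∀ x ∈ A S, x ∈ closure (⋃ F : {F : Finset I // (F : Set I) ⊆ S}, (A F.1 : Set R))
  top : ∀ x, x ∈ A Set.univ
  sep : ∀ S, S.Countable → TopologicalSpace.IsSeparable (A S : Set R)
  supp_countable : ∀ α, (supp α).Countable
  supp_lt : ∀ α, ∀ β ∈ supp α, β < α
  r_mem : ∀ α, act α → ∀ e k, r α e k ∈ A (supp α)
  gad : ∀ α, act α → Gad τ (A (Set.Iio α)) (r α) (u α)
  inact : ∀ α, ¬ act α → u α true = 1
  sat : ∀ s : Bool → ℕ → R, ∃ α, (∀ e k, s e k ∈ A (Set.Iio α)) ∧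
    (Cond τ (A (Set.Iio α)) s → Uni s (u α))

end Alg

section Hilb

variable {H : Type*} [NormedAddCommGroup H] [InnerProductSpace ℂ H] [CompleteSpace H]

/-- The vector functional `T ↦ ⟪Ω, T Ω⟫`. -/
noncomputable def vs (Ω : H) : (H →L[ℂ] H) →L[ℂ] ℂ :=
  (innerSL ℂ Ω).comp (ContinuousLinearMap.apply ℂ H Ω)

omit [CompleteSpace H] in
@[simp] theorem vs_apply (Ω : H) (T : H →L[ℂ] H) : vs Ω T = ⟪Ω, T Ω⟫_ℂ := rfl

/-- No nontrivial closed invariant subspace. -/
def Irr {A : Type*} [CStarAlgebra A] (π : A →⋆ₐ[ℂ] (H →L[ℂ] H)) : Prop :=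
  ∀ K : Submodule ℂ H, IsClosed (K : Set H) → (∀ a, ∀ x ∈ K, π a x ∈ K) → K = ⊥ ∨ K = ⊤

end Hilb

section Grp

variable {Γ : Type*} [Group Γ]

/-- A normalized positive definite class function. -/
structure IsChar (χ : Γ → ℂ) : Prop where
  one : χ 1 = 1
  comm : ∀ g h, χ (g * h) = χ (h * g)
  herm : ∀ g, χ g⁻¹ = star (χ g)
  bdd : ∀ g, ‖χ g‖ ≤ 1
  pos : ∀ (s : Finset Γ) (c : Γ → ℂ), 0 ≤ (∑ g ∈ s, ∑ h ∈ s, star (c g) * c h * χ (g⁻¹ * h)).re

/-- The C*-subalgebra generated by the image of a subgroup. -/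
noncomputable def galg {R : Type*} [CStarAlgebra R] (π : Γ →* R) (Λ : Subgroup Γ) :
    StarSubalgebra ℂ R :=
  (StarAlgebra.adjoin ℂ (π '' (Λ : Set Γ))).topologicalClosure

end Grp

/-- A tracial C*-algebra generated by a unitary representation of `Γ`. -/
structure Model (Γ : Type) [Group Γ] where
  R : Type
  [inst : CStarAlgebra R]
  τ : R →L[ℂ] ℂ
  ft : IsFT τ
  π : Γ →* R
  star_π : ∀ g, star (π g) = π g⁻¹
  gen : ∀ x, x ∈ galg π ⊤

attribute [instance] Model.inst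

/-- Index set of the Pauli operators. -/
abbrev PV : Type := (ℕ →₀ ZMod 2) × (ℕ →₀ ZMod 2)

/-- The sign `(-1)^x`. -/
def sgn (x : ZMod 2) : ℂ := if x = 0 then 1 else -1

/-- The Pauli cocycle `(-1)^(v.2 · w.1)`. -/
noncomputable def sg (v w : PV) : ℂ := sgn (v.2.sum fun i c => c * w.1 i)

/-- Pauli relations. -/
structure Pauli {R : Type*} [CStarAlgebra R] (T : PV → R) : Prop where
  zero : T 0 = 1
  mul : ∀ v w, T v * T w = sg v w • T (v + w)
  star : ∀ v, star (T v) = sg v v • T v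

end Vale.Agent.P070
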